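import Mathlib
import Vale.Agent.P079.Kirk

open Vale.Agent.P079

universe u

/-- Every reflexive Banach space has the fixed point property for nonexpansive maps, in its given
norm. Reflexivity is the surjectivity of the canonical map into the bidual. -/
theorem Vale.Agent.Results.P079.KirkReflexiveFPP.result (X : Type u) [NormedAddCommGroup X]
    [NormedSpace ℝ X] [CompleteSpace X]
    (hX : Function.Surjective (NormedSpace.inclusionInDoubleDual ℝ X))
    (C : Set X) (hne : C.Nonempty) (hcl : IsClosed C) (hbd : Bornology.IsBounded C)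
    (hcv : Convex ℝ C) (T : X → X) (hT : Set.MapsTo T C C)
    (hn : ∀ a ∈ C, ∀ b ∈ C, ‖T a - T b‖ ≤ ‖a - b‖) :
    ∃ x ∈ C, T x = x :=
  fixed_point_of_weaklyCompact_ball (fun R => weaklyCompact_ball_of_reflexive hX R)
    hne hcl hbd hcv hT hn
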