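import Mathlib
import Vale.Agent.P079.Gap

open Vale.Agent.P079

universe u v

/-- Fixed points of nonexpansive maps, for the given norm, in spaces with an equivalent norm that
has an asymptotic gain over the triangle inequality; in particular in superreflexive spaces. -/
theorem Vale.Agent.Results.P079.SzlenkGainFPP.result :
    (∀ (X : Type u) [NormedAddCommGroup X] [NormedSpace ℝ X] [CompleteSpace X]
      (Y : Type v) [NormedAddCommGroup Y] [NormedSpace ℝ Y] (e : X ≃L[ℝ] Y) (R : ℝ), R < 2 →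
      (∀ a : Y, ‖a‖ ≤ 1 → ∃ Ψ : Finset (Y →L[ℝ] ℝ), ∃ ε > 0,
        ∀ b : Y, ‖b‖ ≤ 1 → (∀ ψ ∈ Ψ, |ψ b| ≤ ε) → ‖a + b‖ ≤ R) →
      ∀ C : Set X, C.Nonempty → Convex ℝ C → IsCompact (toWeakSpace ℝ X '' C) →
      ∀ T : X → X, Set.MapsTo T C C → (∀ a ∈ C, ∀ b ∈ C, ‖T a - T b‖ ≤ ‖a - b‖) →
      ∃ x ∈ C, T x = x) ∧
    (∀ (X : Type u) [NormedAddCommGroup X] [NormedSpace ℝ X] [CompleteSpace X]
      (Y : Type v) [NormedAddCommGroup Y] [NormedSpace ℝ Y] [CompleteSpace Y]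
      [UniformConvexSpace Y] (_ : X ≃L[ℝ] Y),
      ∀ C : Set X, C.Nonempty → IsClosed C → Bornology.IsBounded C → Convex ℝ C →
      ∀ T : X → X, Set.MapsTo T C C → (∀ a ∈ C, ∀ b ∈ C, ‖T a - T b‖ ≤ ‖a - b‖) →
      ∃ x ∈ C, T x = x) := by
  refine ⟨?_, ?_⟩
  · intro X _ _ _ Y _ _ e R hR hQ C hne hcv hcomp T hT hn
    exact fixed_point_of_gain (e : X →L[ℝ] Y)
      (fun x => by simpa using (e.symm : Y →L[ℝ] X).le_opNorm (e x)) hR hQ hne
      (isClosed_of_weaklyCompact hcomp) (isBounded_of_weaklyCompact hcomp) hcv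
      (convexCompact_of_weaklyCompact hcomp) hT hn
  · intro X _ _ _ Y _ _ _ _ e C hne hcl hbd hcv T hT hn
    obtain ⟨R, hR, hQ⟩ := gain_of_uniformConvex Y
    exact fixed_point_of_gain (e : X →L[ℝ] Y)
      (fun x => by simpa using (e.symm : Y →L[ℝ] X).le_opNorm (e x)) hR hQ hne hcl hbd hcv
      (convexCompact_of_uniform e hbd) hT hn
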